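import Vale.Agent.P258.R2.H390.Odd3
import Vale.Agent.P258.R2.H390.G7k0
import Vale.Agent.P258.R2.H390.G7k1
import Vale.Agent.P258.R2.H390.G7k2
import Vale.Agent.P258.R2.H390.G7k3

set_option linter.all false

/-!
The residue classes modulo 168 for which the slopes `2` and `-2` are separated.
-/

namespace Vale.Agent.P258.Braid

open Function
open Vale.Agent.P258.Seven (G7 pow84)

theorem code85 : Seven.code (toG7 85) = 85 := by decide +kernel
theorem code94 : Seven.code (toG7 94) = 94 := by decide +kernel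
theorem code95 : Seven.code (toG7 95) = 95 := by decide +kernel
theorem code98 : Seven.code (toG7 98) = 98 := by decide +kernel
theorem code106 : Seven.code (toG7 106) = 106 := by decide +kernel
theorem code142 : Seven.code (toG7 142) = 142 := by decide +kernel
theorem code172 : Seven.code (toG7 172) = 172 := by decide +kernel
theorem code174 : Seven.code (toG7 174) = 174 := by decide +kernel
theorem code177 : Seven.code (toG7 177) = 177 := by decide +kernel
theorem code179 : Seven.code (toG7 179) = 179 := by decide +kernel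
theorem code241 : Seven.code (toG7 241) = 241 := by decide +kernel
theorem code395 : Seven.code (toG7 395) = 395 := by decide +kernel
theorem code444 : Seven.code (toG7 444) = 444 := by decide +kernel

theorem sep7 : caps6.homCount G7 (fam (2 * ((3 : ℕ) : ℤ) + 1)) 2 1 ≠
    caps6.homCount G7 (fam (2 * ((3 : ℕ) : ℤ) + 1)) (-2) 1 := sep 3 18 22 94 95 142 (2) (by norm_num) (by norm_num)
  (by norm_num) (by norm_num) (by norm_num) (by norm_num) Seven.enum7 code94 code95 code142
  (by decide +kernel) (by decide +kernel)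

theorem sep9 : caps6.homCount G7 (fam (2 * ((4 : ℕ) : ℤ) + 1)) 2 1 ≠
    caps6.homCount G7 (fam (2 * ((4 : ℕ) : ℤ) + 1)) (-2) 1 := sep 4 28 24 85 179 395 (-2) (by norm_num) (by norm_num)
  (by norm_num) (by norm_num) (by norm_num) (by norm_num) Seven.enum9 code85 code179 code395
  (by decide +kernel) (by decide +kernel)

theorem sep17 : caps6.homCount G7 (fam (2 * ((8 : ℕ) : ℤ) + 1)) 2 1 ≠
    caps6.homCount G7 (fam (2 * ((8 : ℕ) : ℤ) + 1)) (-2) 1 := sep 8 52 48 94 172 106 (-2) (by norm_num) (by norm_num)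
  (by norm_num) (by norm_num) (by norm_num) (by norm_num) Seven.enum17 code94 code172 code106
  (by decide +kernel) (by decide +kernel)

theorem sep31 : caps6.homCount G7 (fam (2 * ((15 : ℕ) : ℤ) + 1)) 2 1 ≠
    caps6.homCount G7 (fam (2 * ((15 : ℕ) : ℤ) + 1)) (-2) 1 := sep 15 90 94 94 95 142 (2) (by norm_num) (by norm_num)
  (by norm_num) (by norm_num) (by norm_num) (by norm_num) Seven.enum31 code94 code95 code142
  (by decide +kernel) (by decide +kernel)

theorem sep33 : caps6.homCount G7 (fam (2 * ((16 : ℕ) : ℤ) + 1)) 2 1 ≠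
    caps6.homCount G7 (fam (2 * ((16 : ℕ) : ℤ) + 1)) (-2) 1 := sep 16 96 100 85 98 241 (2) (by norm_num) (by norm_num)
  (by norm_num) (by norm_num) (by norm_num) (by norm_num) Seven.enum33 code85 code98 code241
  (by decide +kernel) (by decide +kernel)

theorem sep41 : caps6.homCount G7 (fam (2 * ((20 : ℕ) : ℤ) + 1)) 2 1 ≠
    caps6.homCount G7 (fam (2 * ((20 : ℕ) : ℤ) + 1)) (-2) 1 := sep 20 124 120 94 172 106 (-2) (by norm_num) (by norm_num)
  (by norm_num) (by norm_num) (by norm_num) (by norm_num) Seven.enum41 code94 code172 code106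
  (by decide +kernel) (by decide +kernel)

theorem sep55 : caps6.homCount G7 (fam (2 * ((27 : ℕ) : ℤ) + 1)) 2 1 ≠
    caps6.homCount G7 (fam (2 * ((27 : ℕ) : ℤ) + 1)) (-2) 1 := sep 27 162 166 94 95 142 (2) (by norm_num) (by norm_num)
  (by norm_num) (by norm_num) (by norm_num) (by norm_num) Seven.enum55 code94 code95 code142
  (by decide +kernel) (by decide +kernel)

theorem sep65 : caps6.homCount G7 (fam (2 * ((32 : ℕ) : ℤ) + 1)) 2 1 ≠
    caps6.homCount G7 (fam (2 * ((32 : ℕ) : ℤ) + 1)) (-2) 1 := sep 32 196 192 94 172 106 (-2) (by norm_num) (by norm_num)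
  (by norm_num) (by norm_num) (by norm_num) (by norm_num) Seven.enum65 code94 code172 code106
  (by decide +kernel) (by decide +kernel)

theorem sep73 : caps6.homCount G7 (fam (2 * ((36 : ℕ) : ℤ) + 1)) 2 1 ≠
    caps6.homCount G7 (fam (2 * ((36 : ℕ) : ℤ) + 1)) (-2) 1 := sep 36 220 216 85 98 174 (-2) (by norm_num) (by norm_num)
  (by norm_num) (by norm_num) (by norm_num) (by norm_num) Seven.enum73 code85 code98 code174
  (by decide +kernel) (by decide +kernel)

theorem sep79 : caps6.homCount G7 (fam (2 * ((39 : ℕ) : ℤ) + 1)) 2 1 ≠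
    caps6.homCount G7 (fam (2 * ((39 : ℕ) : ℤ) + 1)) (-2) 1 := sep 39 234 238 94 95 142 (2) (by norm_num) (by norm_num)
  (by norm_num) (by norm_num) (by norm_num) (by norm_num) Seven.enum79 code94 code95 code142
  (by decide +kernel) (by decide +kernel)

theorem sep89 : caps6.homCount G7 (fam (2 * ((44 : ℕ) : ℤ) + 1)) 2 1 ≠
    caps6.homCount G7 (fam (2 * ((44 : ℕ) : ℤ) + 1)) (-2) 1 := sep 44 268 264 94 172 106 (-2) (by norm_num) (by norm_num)
  (by norm_num) (by norm_num) (by norm_num) (by norm_num) Seven.enum89 code94 code172 code106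
  (by decide +kernel) (by decide +kernel)

theorem sep95 : caps6.homCount G7 (fam (2 * ((47 : ℕ) : ℤ) + 1)) 2 1 ≠
    caps6.homCount G7 (fam (2 * ((47 : ℕ) : ℤ) + 1)) (-2) 1 := sep 47 282 286 85 177 444 (2) (by norm_num) (by norm_num)
  (by norm_num) (by norm_num) (by norm_num) (by norm_num) Seven.enum95 code85 code177 code444
  (by decide +kernel) (by decide +kernel)

theorem sep103 : caps6.homCount G7 (fam (2 * ((51 : ℕ) : ℤ) + 1)) 2 1 ≠
    caps6.homCount G7 (fam (2 * ((51 : ℕ) : ℤ) + 1)) (-2) 1 := sep 51 306 310 94 95 142 (2) (by norm_num) (by norm_num)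
  (by norm_num) (by norm_num) (by norm_num) (by norm_num) Seven.enum103 code94 code95 code142
  (by decide +kernel) (by decide +kernel)

theorem sep113 : caps6.homCount G7 (fam (2 * ((56 : ℕ) : ℤ) + 1)) 2 1 ≠
    caps6.homCount G7 (fam (2 * ((56 : ℕ) : ℤ) + 1)) (-2) 1 := sep 56 340 336 94 172 106 (-2) (by norm_num) (by norm_num)
  (by norm_num) (by norm_num) (by norm_num) (by norm_num) Seven.enum113 code94 code172 code106
  (by decide +kernel) (by decide +kernel)

theorem sep127 : caps6.homCount G7 (fam (2 * ((63 : ℕ) : ℤ) + 1)) 2 1 ≠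
    caps6.homCount G7 (fam (2 * ((63 : ℕ) : ℤ) + 1)) (-2) 1 := sep 63 378 382 94 95 142 (2) (by norm_num) (by norm_num)
  (by norm_num) (by norm_num) (by norm_num) (by norm_num) Seven.enum127 code94 code95 code142
  (by decide +kernel) (by decide +kernel)

theorem sep135 : caps6.homCount G7 (fam (2 * ((67 : ℕ) : ℤ) + 1)) 2 1 ≠
    caps6.homCount G7 (fam (2 * ((67 : ℕ) : ℤ) + 1)) (-2) 1 := sep 67 406 402 85 179 395 (-2) (by norm_num) (by norm_num)
  (by norm_num) (by norm_num) (by norm_num) (by norm_num) Seven.enum135 code85 code179 code395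
  (by decide +kernel) (by decide +kernel)

theorem sep137 : caps6.homCount G7 (fam (2 * ((68 : ℕ) : ℤ) + 1)) 2 1 ≠
    caps6.homCount G7 (fam (2 * ((68 : ℕ) : ℤ) + 1)) (-2) 1 := sep 68 412 408 94 172 106 (-2) (by norm_num) (by norm_num)
  (by norm_num) (by norm_num) (by norm_num) (by norm_num) Seven.enum137 code94 code172 code106
  (by decide +kernel) (by decide +kernel)

theorem sep151 : caps6.homCount G7 (fam (2 * ((75 : ℕ) : ℤ) + 1)) 2 1 ≠
    caps6.homCount G7 (fam (2 * ((75 : ℕ) : ℤ) + 1)) (-2) 1 := sep 75 450 454 94 95 142 (2) (by norm_num) (by norm_num)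
  (by norm_num) (by norm_num) (by norm_num) (by norm_num) Seven.enum151 code94 code95 code142
  (by decide +kernel) (by decide +kernel)

theorem sep159 : caps6.homCount G7 (fam (2 * ((79 : ℕ) : ℤ) + 1)) 2 1 ≠
    caps6.homCount G7 (fam (2 * ((79 : ℕ) : ℤ) + 1)) (-2) 1 := sep 79 474 478 85 98 241 (2) (by norm_num) (by norm_num)
  (by norm_num) (by norm_num) (by norm_num) (by norm_num) Seven.enum159 code85 code98 code241
  (by decide +kernel) (by decide +kernel)

theorem sep161 : caps6.homCount G7 (fam (2 * ((80 : ℕ) : ℤ) + 1)) 2 1 ≠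
    caps6.homCount G7 (fam (2 * ((80 : ℕ) : ℤ) + 1)) (-2) 1 := sep 80 484 480 94 172 106 (-2) (by norm_num) (by norm_num)
  (by norm_num) (by norm_num) (by norm_num) (by norm_num) Seven.enum161 code94 code172 code106
  (by decide +kernel) (by decide +kernel)

/-- The numbers `h` such that the slopes are separated for `n = 2 * h + 1`. -/
def classes : List ℕ := [3, 4, 8, 15, 16, 20, 27, 32, 36, 39, 44, 47, 51, 56, 63, 67, 68, 75, 79, 80]

theorem sep_all : ∀ h ∈ classes, caps6.homCount G7 (fam (2 * (h : ℤ) + 1)) 2 1 ≠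
    caps6.homCount G7 (fam (2 * (h : ℤ) + 1)) (-2) 1 := by
  intro h hh
  simp only [classes, List.mem_cons, List.not_mem_nil, or_false] at hh
  rcases hh with rfl | rfl | rfl | rfl | rfl | rfl | rfl | rfl | rfl | rfl | rfl | rfl | rfl | rfl | rfl | rfl | rfl | rfl | rfl | rfl
  · exact sep7
  · exact sep9
  · exact sep17
  · exact sep31
  · exact sep33
  · exact sep41
  · exact sep55
  · exact sep65
  · exact sep73
  · exact sep79
  · exact sep89
  · exact sep95
  · exact sep103
  · exact sep113
  · exact sep127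
  · exact sep135
  · exact sep137
  · exact sep151
  · exact sep159
  · exact sep161

end Vale.Agent.P258.Braid
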